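import Mathlib.Analysis.SpecialFunctions.Log.Basic
import Mathlib.Analysis.SpecialFunctions.ExpDeriv
import Mathlib.Analysis.SpecialFunctions.Log.Deriv
import Mathlib.Analysis.Convex.StdSimplex
import Mathlib.Analysis.Calculus.Deriv.Slope
import Mathlib.Topology.Order.Compact
import Mathlib.Algebra.BigOperators.Field

/-! (IV.0): the convex minimiser and its first-order condition. -/

namespace Vale.Agent.P015.H354

open Finset Filter Topology

section

variable {B ι κ : Type*} [Fintype B] [DecidableEq κ]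

/-- mass of the class `c`: probability that a random block hits `c` -/
noncomputable def mu (hit : B → Finset κ) (m : B → ℝ) (c : κ) : ℝ :=
  ∑ b, if c ∈ hit b then m b else 0

/-- partition function -/
noncomputable def Zp (cls : Finset κ) (hit : B → Finset κ) (J : ℝ) (m : B → ℝ) : ℝ :=
  ∑ c ∈ cls, Real.exp (-(J * mu hit m c))

/-- the associated law on the classes -/
noncomputable def qp (cls : Finset κ) (hit : B → Finset κ) (J : ℝ) (m : B → ℝ) (c : κ) : ℝ :=
  Real.exp (-(J * mu hit m c)) / Zp cls hit J m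

theorem mu_nonneg (hit : B → Finset κ) {m : B → ℝ} (hm : ∀ b, 0 ≤ m b) (c : κ) :
    0 ≤ mu hit m c := by
  refine Finset.sum_nonneg fun b _ => ?_
  split_ifs
  · exact hm b
  · exact le_rfl

theorem mu_le_one (hit : B → Finset κ) {m : B → ℝ} (hm : ∀ b, 0 ≤ m b) (h1 : ∑ b, m b = 1)
    (c : κ) : mu hit m c ≤ 1 := by
  rw [← h1]
  refine Finset.sum_le_sum fun b _ => ?_
  split_ifs
  · exact le_rfl
  · exact hm b

theorem Zp_pos {cls : Finset κ} (hc : cls.Nonempty) (hit : B → Finset κ) (J : ℝ) (m : B → ℝ) :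
    0 < Zp cls hit J m :=
  Finset.sum_pos (fun _ _ => Real.exp_pos _) hc

theorem qp_pos {cls : Finset κ} (hc : cls.Nonempty) (hit : B → Finset κ) (J : ℝ) (m : B → ℝ)
    (c : κ) : 0 < qp cls hit J m c :=
  div_pos (Real.exp_pos _) (Zp_pos hc hit J m)

theorem sum_qp {cls : Finset κ} (hc : cls.Nonempty) (hit : B → Finset κ) (J : ℝ) (m : B → ℝ) :
    ∑ c ∈ cls, qp cls hit J m c = 1 := by
  simp only [qp]
  rw [← Finset.sum_div]
  exact div_self (Zp_pos hc hit J m).ne'

theorem qp_le {cls : Finset κ} (hc : cls.Nonempty) (hit : B → Finset κ) {J : ℝ} (hJ : 0 ≤ J)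
    {m : B → ℝ} (hm : ∀ b, 0 ≤ m b) (c : κ) :
    qp cls hit J m c ≤ 1 / Zp cls hit J m := by
  rw [qp]
  refine div_le_div_of_nonneg_right ?_ (Zp_pos hc hit J m).le
  rw [Real.exp_le_one_iff]
  have := mul_nonneg hJ (mu_nonneg hit hm c)
  linarith

/-- a class that is never hit gives `1 ≤ Z` -/
theorem one_le_Zp {cls : Finset κ} (hit : B → Finset κ) (J : ℝ) (m : B → ℝ) {a : κ}
    (ha : a ∈ cls) (hn : ∀ b, a ∉ hit b) : 1 ≤ Zp cls hit J m := by
  have h0 : mu hit m a = 0 := Finset.sum_eq_zero fun b _ => if_neg (hn b)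
  have h1 : Real.exp (-(J * mu hit m a)) ≤ Zp cls hit J m :=
    Finset.single_le_sum (f := fun c => Real.exp (-(J * mu hit m c)))
      (fun _ _ => (Real.exp_pos _).le) ha
  rw [h0, mul_zero, neg_zero, Real.exp_zero] at h1
  exact h1

theorem Zp_le_card (cls : Finset κ) (hit : B → Finset κ) {J : ℝ} (hJ : 0 ≤ J)
    {m : B → ℝ} (hm : ∀ b, 0 ≤ m b) : Zp cls hit J m ≤ cls.card := by
  have h : Zp cls hit J m ≤ ∑ c ∈ cls, (1 : ℝ) := by
    refine Finset.sum_le_sum fun c _ => ?_
    rw [Real.exp_le_one_iff]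
    have := mul_nonneg hJ (mu_nonneg hit hm c)
    linarith
  simpa using h

/-- Gibbs: `J ⟨q, μ⟩ ≤ log card - log Z` -/
theorem energy_le {cls : Finset κ} (hc : cls.Nonempty) (hit : B → Finset κ) (J : ℝ)
    (m : B → ℝ) :
    J * ∑ c ∈ cls, qp cls hit J m c * mu hit m c ≤
      Real.log cls.card - Real.log (Zp cls hit J m) := by
  have hZ := Zp_pos hc hit J m
  have hn : (0 : ℝ) < cls.card := by exact_mod_cast Finset.card_pos.2 hc
  have key : ∀ c ∈ cls, qp cls hit J m c * (J * mu hit m c) ≤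
      qp cls hit J m c * (Real.log cls.card - Real.log (Zp cls hit J m)) +
        (1 / cls.card - qp cls hit J m c) := by
    intro c _
    have hq := qp_pos hc hit J m c
    have h1 : Real.log (qp cls hit J m c) = -(J * mu hit m c) - Real.log (Zp cls hit J m) := by
      rw [qp, Real.log_div (Real.exp_pos _).ne' hZ.ne', Real.log_exp]
    have h2 := Real.log_le_sub_one_of_pos (x := 1 / (cls.card * qp cls hit J m c))
      (by positivity)
    have h3 : Real.log (1 / (cls.card * qp cls hit J m c)) =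
        -Real.log cls.card - Real.log (qp cls hit J m c) := by
      rw [Real.log_div one_ne_zero (by positivity), Real.log_one, Real.log_mul hn.ne' hq.ne']
      ring
    rw [h3, h1] at h2
    have h4 : J * mu hit m c ≤ Real.log cls.card - Real.log (Zp cls hit J m) +
        (1 / (cls.card * qp cls hit J m c) - 1) := by linarith
    calc qp cls hit J m c * (J * mu hit m c) ≤ qp cls hit J m c *
          (Real.log cls.card - Real.log (Zp cls hit J m) +
            (1 / (cls.card * qp cls hit J m c) - 1)) :=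
          mul_le_mul_of_nonneg_left h4 hq.le
      _ = _ := by field_simp
  have h := Finset.sum_le_sum key
  rw [Finset.sum_add_distrib, ← Finset.sum_mul, sum_qp hc, Finset.sum_sub_distrib, sum_qp hc,
    Finset.sum_const, nsmul_eq_mul, mul_one_div_cancel hn.ne', sub_self, add_zero, one_mul] at h
  rw [Finset.mul_sum]
  refine le_trans (le_of_eq (Finset.sum_congr rfl fun c _ => by ring)) h

/-- the functional -/
noncomputable def Psi (S : Finset ι) (cls : ι → Finset κ) (hit : ι → B → Finset κ)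
    (w J : ι → ℝ) (m : B → ℝ) : ℝ :=
  ∑ i ∈ S, w i * Real.log (Zp (cls i) (hit i) (J i) m)

theorem continuous_mu (hit : B → Finset κ) (c : κ) : Continuous fun m : B → ℝ => mu hit m c := by
  simp only [mu]
  refine continuous_finsetSum _ fun b _ => ?_
  split_ifs
  · exact continuous_apply b
  · exact continuous_const

theorem continuous_Zp (cls : Finset κ) (hit : B → Finset κ) (J : ℝ) :
    Continuous fun m : B → ℝ => Zp cls hit J m := by
  simp only [Zp]
  exact continuous_finsetSum _ fun c _ =>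
    Real.continuous_exp.comp ((continuous_const.mul (continuous_mu hit c)).neg)

theorem continuous_Psi (S : Finset ι) (cls : ι → Finset κ) (hit : ι → B → Finset κ)
    (w J : ι → ℝ) (hc : ∀ i ∈ S, (cls i).Nonempty) :
    Continuous fun m : B → ℝ => Psi S cls hit w J m := by
  simp only [Psi]
  refine continuous_finsetSum _ fun i hi => continuous_const.mul ?_
  exact (continuous_Zp (cls i) (hit i) (J i)).log fun m => (Zp_pos (hc i hi) _ _ m).ne'

/-- segment from `m` to the point mass at `b` -/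
noncomputable def seg [DecidableEq B] (m : B → ℝ) (b₀ : B) (t : ℝ) : B → ℝ :=
  fun b => (1 - t) * m b + t * (if b = b₀ then 1 else 0)

theorem mu_seg [DecidableEq B] (hit : B → Finset κ) (m : B → ℝ) (b₀ : B) (t : ℝ) (c : κ) :
    mu hit (seg m b₀ t) c = mu hit m c + t * ((if c ∈ hit b₀ then 1 else 0) - mu hit m c) := by
  have h1 : mu hit (seg m b₀ t) c = ∑ b, ((1 - t) * (if c ∈ hit b then m b else 0) +
      t * (if b = b₀ then (if c ∈ hit b₀ then 1 else 0) else 0)) := by
    refine Finset.sum_congr rfl fun b _ => ?_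
    simp only [seg]
    by_cases hb : b = b₀
    · subst hb
      split_ifs <;> simp
    · rw [if_neg hb, if_neg hb]
      split_ifs <;> simp
  rw [h1, Finset.sum_add_distrib, ← Finset.mul_sum, ← Finset.mul_sum, Finset.sum_ite_eq' ,
    if_pos (Finset.mem_univ _)]
  simp only [mu]
  ring

theorem hasDerivAt_logZ [DecidableEq B] {cls : Finset κ} (hc : cls.Nonempty)
    (hit : B → Finset κ) (J : ℝ) (m : B → ℝ) (b₀ : B) :
    HasDerivAt (fun t => Real.log (Zp cls hit J (seg m b₀ t)))
      (-(J * ∑ c ∈ cls, qp cls hit J m c * ((if c ∈ hit b₀ then 1 else 0) - mu hit m c))) 0 := by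
  have h0 : seg m b₀ 0 = m := by
    funext b
    simp [seg]
  have h1 : ∀ c ∈ cls, HasDerivAt (fun t => Real.exp (-(J * mu hit (seg m b₀ t) c)))
      (Real.exp (-(J * mu hit m c)) * (-(J * ((if c ∈ hit b₀ then 1 else 0) - mu hit m c)))) 0 := by
    intro c _
    have h2 : HasDerivAt (fun t : ℝ => -(J * mu hit (seg m b₀ t) c))
        (-(J * ((if c ∈ hit b₀ then 1 else 0) - mu hit m c))) 0 := by
      simp only [mu_seg]
      have h3 : HasDerivAt (fun t : ℝ => mu hit m c +
          t * ((if c ∈ hit b₀ then 1 else 0) - mu hit m c))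
          ((if c ∈ hit b₀ then 1 else 0) - mu hit m c) 0 := by
        have := ((hasDerivAt_id (0 : ℝ)).mul_const
          ((if c ∈ hit b₀ then 1 else 0) - mu hit m c)).const_add (mu hit m c)
        simpa using this
      exact (h3.const_mul J).neg
    have h4 := h2.exp
    rw [h0] at h4
    exact h4
  have h5 : HasDerivAt (fun t => Zp cls hit J (seg m b₀ t))
      (∑ c ∈ cls, Real.exp (-(J * mu hit m c)) *
        (-(J * ((if c ∈ hit b₀ then 1 else 0) - mu hit m c)))) 0 := by
    simp only [Zp]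
    exact HasDerivAt.fun_sum h1
  have hZ := Zp_pos hc hit J m
  have h6 := h5.log (by rw [h0]; exact hZ.ne')
  rw [h0] at h6
  convert h6 using 1
  rw [Finset.sum_div, Finset.mul_sum, ← Finset.sum_neg_distrib]
  refine Finset.sum_congr rfl fun c _ => ?_
  rw [qp]
  ring

/-- **KKT for `∑ w log Z`** -/
theorem kktz [Nonempty B] (S : Finset ι) (cls : ι → Finset κ) (hit : ι → B → Finset κ)
    (w J : ι → ℝ) (hc : ∀ i ∈ S, (cls i).Nonempty) (hw : ∀ i ∈ S, 0 ≤ w i)
    (hs : ∀ i ∈ S, ∀ b, hit i b ⊆ cls i) :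
    ∃ m : B → ℝ, (∀ b, 0 ≤ m b) ∧ ∑ b, m b = 1 ∧
      (∀ m' : B → ℝ, (∀ b, 0 ≤ m' b) → ∑ b, m' b = 1 →
        Psi S cls hit w J m ≤ Psi S cls hit w J m') ∧
      ∀ b, ∑ i ∈ S, w i * (J i * ∑ c ∈ hit i b, qp (cls i) (hit i) (J i) m c) ≤
        ∑ i ∈ S, w i * (Real.log (cls i).card - Real.log (Zp (cls i) (hit i) (J i) m)) := by
  classical
  obtain ⟨b₁⟩ := ‹Nonempty B›
  obtain ⟨m, hmS, hmin⟩ := (isCompact_stdSimplex ℝ B).exists_isMinOn
    ⟨_, single_mem_stdSimplex ℝ b₁⟩ (continuous_Psi S cls hit w J hc).continuousOn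
  rw [stdSimplex, Set.mem_ofPred_eq] at hmS
  obtain ⟨hm0, hm1⟩ := hmS
  have hmin' : ∀ m' : B → ℝ, (∀ b, 0 ≤ m' b) → ∑ b, m' b = 1 →
      Psi S cls hit w J m ≤ Psi S cls hit w J m' := by
    intro m' h0 h1
    exact hmin (show m' ∈ stdSimplex ℝ B from ⟨h0, h1⟩)
  refine ⟨m, hm0, hm1, hmin', fun b₀ => ?_⟩
  have hseg0 : seg m b₀ 0 = m := by
    funext b
    simp [seg]
  -- derivative along the segment
  have hD : HasDerivAt (fun t => Psi S cls hit w J (seg m b₀ t))
      (∑ i ∈ S, w i * (-(J i * ∑ c ∈ cls i, qp (cls i) (hit i) (J i) m c *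
        ((if c ∈ hit i b₀ then 1 else 0) - mu (hit i) m c)))) 0 := by
    simp only [Psi]
    exact HasDerivAt.fun_sum fun i hi => (hasDerivAt_logZ (hc i hi) (hit i) (J i) m b₀).const_mul _
  have hge : 0 ≤ ∑ i ∈ S, w i * (-(J i * ∑ c ∈ cls i, qp (cls i) (hit i) (J i) m c *
        ((if c ∈ hit i b₀ then 1 else 0) - mu (hit i) m c))) := by
    have h1 := (hasDerivAt_iff_tendsto_slope_zero.1 hD)
    have h2 : Tendsto (fun t : ℝ => t⁻¹ • (Psi S cls hit w J (seg m b₀ (0 + t)) -
        Psi S cls hit w J (seg m b₀ 0))) (𝓝[>] 0) (𝓝 (∑ i ∈ S, w i * (-(J i * ∑ c ∈ cls i,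
          qp (cls i) (hit i) (J i) m c * ((if c ∈ hit i b₀ then 1 else 0) - mu (hit i) m c))))) :=
      h1.mono_left (nhdsWithin_mono _ fun t ht => ne_of_gt ht)
    refine ge_of_tendsto h2 ?_
    have h3 : ∀ᶠ t : ℝ in 𝓝[>] 0, t ≤ 1 :=
      (eventually_le_nhds (by norm_num : (0 : ℝ) < 1)).filter_mono nhdsWithin_le_nhds
    filter_upwards [h3, self_mem_nhdsWithin] with t ht1 ht0
    have ht0' : (0 : ℝ) < t := ht0
    rw [zero_add, hseg0, smul_eq_mul]
    refine mul_nonneg (inv_nonneg.2 ht0'.le) (sub_nonneg.2 (hmin' _ (fun b => ?_) ?_))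
    · simp only [seg]
      have h5 : 0 ≤ (1 - t) * m b := mul_nonneg (by linarith) (hm0 b)
      have h6 : 0 ≤ t * (if b = b₀ then (1 : ℝ) else 0) := by split_ifs <;> simp [ht0'.le]
      linarith
    · simp only [seg]
      rw [Finset.sum_add_distrib, ← Finset.mul_sum, ← Finset.mul_sum, hm1, Finset.sum_ite_eq',
        if_pos (Finset.mem_univ _)]
      ring
  -- rewrite
  have h7 : ∀ i ∈ S, w i * (-(J i * ∑ c ∈ cls i, qp (cls i) (hit i) (J i) m c *
      ((if c ∈ hit i b₀ then 1 else 0) - mu (hit i) m c))) =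
      w i * (J i * ∑ c ∈ cls i, qp (cls i) (hit i) (J i) m c * mu (hit i) m c) -
        w i * (J i * ∑ c ∈ hit i b₀, qp (cls i) (hit i) (J i) m c) := by
    intro i hi
    have h8 : ∑ c ∈ cls i, qp (cls i) (hit i) (J i) m c *
        ((if c ∈ hit i b₀ then 1 else 0) - mu (hit i) m c) =
        ∑ c ∈ hit i b₀, qp (cls i) (hit i) (J i) m c -
          ∑ c ∈ cls i, qp (cls i) (hit i) (J i) m c * mu (hit i) m c := by
      have h9 : ∑ c ∈ hit i b₀, qp (cls i) (hit i) (J i) m c =
          ∑ c ∈ cls i, if c ∈ hit i b₀ then qp (cls i) (hit i) (J i) m c else 0 := by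
        rw [← Finset.sum_filter]
        refine Finset.sum_congr ?_ fun _ _ => rfl
        ext c
        simp only [Finset.mem_filter]
        exact ⟨fun h => ⟨hs i hi b₀ h, h⟩, fun h => h.2⟩
      rw [h9, ← Finset.sum_sub_distrib]
      refine Finset.sum_congr rfl fun c _ => ?_
      split_ifs <;> ring
    rw [h8]
    ring
  rw [Finset.sum_congr rfl h7, Finset.sum_sub_distrib, sub_nonneg] at hge
  refine hge.trans (Finset.sum_le_sum fun i hi => mul_le_mul_of_nonneg_left ?_ (hw i hi))
  exact energy_le (hc i hi) (hit i) (J i) m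

/-- classes of `cls` missed by all blocks of the sample `f` -/
def missed {n : ℕ} (cls : Finset κ) (hit : B → Finset κ) (f : Fin n → B) : Finset κ :=
  cls.filter fun c => ∀ j, c ∉ hit (f j)

/-- expected number of missed classes -/
theorem sum_missed_le (cls : Finset κ) (hit : B → Finset κ) {m : B → ℝ}
    (hm : ∀ b, 0 ≤ m b) (h1 : ∑ b, m b = 1) (n : ℕ) :
    ∑ f : Fin n → B, (∏ j, m (f j)) * ((missed cls hit f).card : ℝ) ≤ Zp cls hit n m := by
  have e1 : ∀ f : Fin n → B, (∏ j, m (f j)) * ((missed cls hit f).card : ℝ) =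
      ∑ c ∈ cls, ∏ j, (if c ∈ hit (f j) then 0 else m (f j)) := by
    intro f
    have e2 : ((missed cls hit f).card : ℝ) =
        ∑ c ∈ cls, if (∀ j, c ∉ hit (f j)) then (1 : ℝ) else 0 := by
      rw [missed, ← Finset.sum_filter, Finset.sum_const, nsmul_eq_mul, mul_one]
    rw [e2, Finset.mul_sum]
    refine Finset.sum_congr rfl fun c _ => ?_
    split_ifs with h
    · rw [mul_one]
      exact Finset.prod_congr rfl fun j _ => (if_neg (h j)).symm
    · rw [mul_zero]
      push Not at h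
      obtain ⟨j, hj⟩ := h
      symm
      exact Finset.prod_eq_zero (i := j) (Finset.mem_univ j) (by rw [if_pos hj])
  rw [Finset.sum_congr rfl fun f _ => e1 f, Finset.sum_comm, Zp]
  refine Finset.sum_le_sum fun c _ => ?_
  have e3 : ∑ f : Fin n → B, ∏ j, (if c ∈ hit (f j) then 0 else m (f j)) =
      (∑ b, if c ∈ hit b then 0 else m b) ^ n :=
    (Fintype.sum_pow (fun b => if c ∈ hit b then 0 else m b) n).symm
  have e4 : (∑ b, if c ∈ hit b then 0 else m b) = 1 - mu hit m c := by
    rw [eq_sub_iff_add_eq, mu, ← Finset.sum_add_distrib, ← h1]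
    refine Finset.sum_congr rfl fun b _ => ?_
    split_ifs <;> simp
  rw [e3, e4]
  have h2 := mu_le_one hit hm h1 c
  have h3 : 1 - mu hit m c ≤ Real.exp (-mu hit m c) := Real.one_sub_le_exp_neg _
  calc (1 - mu hit m c) ^ n ≤ Real.exp (-mu hit m c) ^ n :=
        pow_le_pow_left₀ (by linarith) h3 n
    _ = Real.exp (-(n * mu hit m c)) := by
        rw [← Real.exp_nat_mul]
        congr 1
        ring

/-- **[MISS]**: expected logarithm of the number of missed classes -/
theorem sum_log_missed_le (cls : Finset κ) (hit : B → Finset κ) {m : B → ℝ}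
    (hm : ∀ b, 0 ≤ m b) (h1 : ∑ b, m b = 1) (n : ℕ) {a : κ} (ha : a ∈ cls)
    (hn : ∀ b, a ∉ hit b) :
    ∑ f : Fin n → B, (∏ j, m (f j)) * Real.log ((missed cls hit f).card : ℝ) ≤
      Real.log (Zp cls hit n m) := by
  have hZ1 := one_le_Zp hit n m ha hn
  have hZ : 0 < Zp cls hit n m := by linarith
  have hN : ∀ f : Fin n → B, 0 < ((missed cls hit f).card : ℝ) := by
    intro f
    have : a ∈ missed cls hit f := Finset.mem_filter.2 ⟨ha, fun j => hn (f j)⟩
    exact_mod_cast Finset.card_pos.2 ⟨a, this⟩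
  have hP : ∑ f : Fin n → B, (∏ j, m (f j)) = 1 := by
    rw [← Fintype.sum_pow, h1, one_pow]
  have key : ∀ f ∈ (Finset.univ : Finset (Fin n → B)),
      (∏ j, m (f j)) * Real.log ((missed cls hit f).card : ℝ) ≤
      (∏ j, m (f j)) * (Real.log (Zp cls hit n m) - 1) +
        ((∏ j, m (f j)) * ((missed cls hit f).card : ℝ)) * (1 / Zp cls hit n m) := by
    intro f _
    have hp : 0 ≤ ∏ j, m (f j) := Finset.prod_nonneg fun j _ => hm _
    have h2 := Real.log_le_sub_one_of_pos (div_pos (hN f) hZ)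
    rw [Real.log_div (hN f).ne' hZ.ne'] at h2
    have h3 : Real.log ((missed cls hit f).card : ℝ) ≤ (Real.log (Zp cls hit n m) - 1) +
        ((missed cls hit f).card : ℝ) * (1 / Zp cls hit n m) := by
      rw [mul_one_div]
      linarith
    calc _ ≤ (∏ j, m (f j)) * ((Real.log (Zp cls hit n m) - 1) +
          ((missed cls hit f).card : ℝ) * (1 / Zp cls hit n m)) :=
          mul_le_mul_of_nonneg_left h3 hp
      _ = _ := by ring
  refine (Finset.sum_le_sum key).trans ?_
  rw [Finset.sum_add_distrib, ← Finset.sum_mul, hP, one_mul, ← Finset.sum_mul]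
  have h4 := mul_le_mul_of_nonneg_right (sum_missed_le cls hit hm h1 n)
    (by positivity : 0 ≤ 1 / Zp cls hit n m)
  rw [mul_one_div_cancel hZ.ne'] at h4
  linarith

end

end Vale.Agent.P015.H354
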